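import Crest.Agent.X212.Glue52.More

/-!
# X212 / Grm47 (helper47): monotone maps, slow cut-offs, extension of families of germs
-/

set_option autoImplicit false

open Set Filter Topology Function Metric
open scoped ContDiff Manifold InnerProductSpace
open Crest.Agent.X212.Glue52

noncomputable section

namespace Crest.Agent.X212.Grm47

variable {E : Type*} [NormedAddCommGroup E] [InnerProductSpace ℝ E]

/-- positive linear maps -/
def Ps (A : E →L[ℝ] E) : Prop := ∀ v, v ≠ 0 → 0 < ⟪A v, v⟫_ℝ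

theorem ps_id : Ps (ContinuousLinearMap.id ℝ E) := fun _ hv => real_inner_self_pos.2 hv

theorem mono_inj {F : E → E} (hF : Differentiable ℝ F) (hp : ∀ x, Ps (fderiv ℝ F x)) :
    Injective F := by
  intro x y e
  by_contra hne
  have hv : y - x ≠ 0 := sub_ne_zero.2 (Ne.symm hne)
  have d : ∀ s : ℝ, HasDerivAt (fun s : ℝ => ⟪F (x + s • (y - x)), y - x⟫_ℝ)
      ⟪fderiv ℝ F (x + s • (y - x)) (y - x), y - x⟫_ℝ s := fun s => by
    have h1 : HasDerivAt (fun s : ℝ => x + s • (y - x)) (y - x) s := by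
      simpa using ((hasDerivAt_id s).smul_const (y - x)).const_add x
    simpa using ((hF _).hasFDerivAt.comp_hasDerivAt s h1).inner ℝ (hasDerivAt_const s (y - x))
  have := strictMono_of_hasDerivAt_pos d (fun s => hp _ _ hv) (zero_lt_one' ℝ)
  simp [e] at this

variable [FiniteDimensional ℝ E]

theorem mono_ld {F : E → E} (hF : ContDiff ℝ ∞ F) (hp : ∀ x, Ps (fderiv ℝ F x)) :
    IsLocalDiffeomorph 𝓘(ℝ, E) 𝓘(ℝ, E) ∞ F := fun x => by
  refine ld_of_injective_mfderiv rfl isOpen_univ (mem_univ x) hF.contMDiff.contMDiffOn ?_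
  rw [mfderiv_eq_fderiv]
  refine (injective_iff_map_eq_zero _).2 fun (v : E) hv => by_contra fun h => ?_
  have := hp x v h
  rw [show fderiv ℝ F x v = 0 from hv, inner_zero_left] at this
  exact lt_irrefl _ this

theorem mono_bij {F : E → E} (hF : ContDiff ℝ ∞ F) (hp : ∀ x, Ps (fderiv ℝ F x)) {R : ℝ}
    (hR : ∀ x, R ≤ ‖x‖ → F x = x) : Bijective F := by
  refine ⟨mono_inj (hF.differentiable (by simp)) hp, range_eq_univ.1 ?_⟩
  refine IsClopen.eq_univ ⟨?_, (mono_ld hF hp).isOpen_range⟩ (range_nonempty F)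
  have : range F = F '' closedBall 0 R ∪ {x | R ≤ ‖x‖} := by
    refine Subset.antisymm ?_ (union_subset (image_subset_range _ _) fun x hx => ⟨x, hR x hx⟩)
    rintro _ ⟨x, rfl⟩
    rcases le_total ‖x‖ R with h | h
    · exact Or.inl ⟨x, mem_closedBall_zero_iff.2 h, rfl⟩
    · exact Or.inr (by rwa [mem_ofPred_eq, hR x h])
  rw [this]
  exact ((isCompact_closedBall _ _).image hF.continuous).isClosed.union
    (isClosed_le continuous_const continuous_norm)

/-- a monotone map that is the identity near infinity is a diffeomorphism -/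
def monoD {F : E → E} (hF : ContDiff ℝ ∞ F) (hp : ∀ x, Ps (fderiv ℝ F x)) {R : ℝ}
    (hR : ∀ x, R ≤ ‖x‖ → F x = x) : E ≃ₘ^∞⟮𝓘(ℝ, E), 𝓘(ℝ, E)⟯ E :=
  (mono_ld hF hp).diffeomorphOfBijective (mono_bij hF hp hR)

theorem monoD_apply {F : E → E} (hF : ContDiff ℝ ∞ F) (hp : ∀ x, Ps (fderiv ℝ F x)) {R : ℝ}
    (hR : ∀ x, R ≤ ‖x‖ → F x = x) (x : E) : monoD hF hp hR x = F x := rfl

theorem exists_st_bound : ∃ M : ℝ, 0 < M ∧ ∀ t, |deriv Real.smoothTransition t| ≤ M := by
  have hc : Continuous (deriv Real.smoothTransition) :=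
    (Real.smoothTransition.contDiff (n := 1)).continuous_deriv le_rfl
  obtain ⟨M, hM⟩ := (isCompact_Icc (a := (0 : ℝ)) (b := 1)).exists_bound_of_continuousOn
    hc.continuousOn
  refine ⟨max M 1, by positivity, fun t => ?_⟩
  by_cases h : t ∈ Icc (0 : ℝ) 1
  · exact (hM t h).trans (le_max_left _ _)
  · have : deriv Real.smoothTransition t = 0 := by
      rcases not_and_or.1 h with h | h
      · refine IsLocalMin.deriv_eq_zero (Eventually.of_forall fun s => ?_)
        rw [Real.smoothTransition.zero_of_nonpos (not_le.1 h).le]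
        exact Real.smoothTransition.nonneg s
      · refine IsLocalMax.deriv_eq_zero (Eventually.of_forall fun s => ?_)
        rw [Real.smoothTransition.one_of_one_le (not_le.1 h).le]
        exact Real.smoothTransition.le_one s
    rw [this, abs_zero]
    positivity

omit [FiniteDimensional ℝ E] in
/-- slow cut-off -/
theorem exists_slow {ε δ : ℝ} (hε : 0 < ε) (hδ : 0 < δ) : ∃ χ : E → ℝ, ContDiff ℝ ∞ χ ∧
    (∀ x, 0 ≤ χ x ∧ χ x ≤ 1) ∧ (∀ x, δ ≤ ‖x‖ → χ x = 0) ∧ (∀ᶠ x in 𝓝 0, χ x = 1) ∧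
    ∀ x v, ‖x‖ * |fderiv ℝ χ x v| ≤ ε * ‖v‖ := by
  obtain ⟨M, M0, hM⟩ := exists_st_bound
  set e : ℝ := ε / (2 * M) with he
  have e0 : 0 < e := by positivity
  set η : ℝ := δ ^ 2 * Real.exp (-e⁻¹) / 2 with hη
  have η0 : 0 < η := by positivity
  have p : ∀ x : E, 0 < ‖x‖ ^ 2 + η := fun x => by positivity
  let q : E → ℝ := fun x => e * (Real.log (δ ^ 2) - Real.log (‖x‖ ^ 2 + η))
  have cq : ContDiff ℝ ∞ q := contDiff_const.mul (contDiff_const.sub
    (((contDiff_norm_sq ℝ).add contDiff_const).log fun x => (p x).ne'))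
  refine ⟨fun x => Real.smoothTransition (q x), Real.smoothTransition.contDiff.comp cq,
    fun x => ⟨Real.smoothTransition.nonneg _, Real.smoothTransition.le_one _⟩, fun x hx => ?_, ?_,
    fun x v => ?_⟩
  · refine Real.smoothTransition.zero_of_nonpos (mul_nonpos_of_nonneg_of_nonpos e0.le
      (sub_nonpos.2 (Real.log_le_log (by positivity) ?_)))
    nlinarith
  · have : ∀ᶠ x : E in 𝓝 0, ‖x‖ ^ 2 < η :=
      (by fun_prop : Continuous fun x : E => ‖x‖ ^ 2).continuousAt.eventually_lt continuousAt_const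
        (by simpa using η0)
    filter_upwards [this] with x hx
    refine Real.smoothTransition.one_of_one_le ?_
    have h1 : Real.log (‖x‖ ^ 2 + η) ≤ Real.log (δ ^ 2 * Real.exp (-e⁻¹)) :=
      Real.log_le_log (p x) (by linarith)
    rw [Real.log_mul (by positivity) (by positivity), Real.log_exp] at h1
    calc (1 : ℝ) = e * e⁻¹ := (mul_inv_cancel₀ e0.ne').symm
      _ ≤ _ := mul_le_mul_of_nonneg_left (by linarith) e0.le
  · have d1 := ((((hasStrictFDerivAt_norm_sq x).hasFDerivAt.add_const η).log (p x).ne').const_sub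
      (Real.log (δ ^ 2))).const_mul e
    have d2 := ((Real.smoothTransition.contDiff (n := 1)).differentiable (by simp)
      (q x)).hasDerivAt.comp_hasFDerivAt x d1
    have d3 : fderiv ℝ (fun x => Real.smoothTransition (q x)) x v =
        -(deriv Real.smoothTransition (q x) * (e * ((‖x‖ ^ 2 + η)⁻¹ * (2 * ⟪x, v⟫_ℝ)))) := by
      rw [show fderiv ℝ (fun x => Real.smoothTransition (q x)) x = _ from d2.fderiv]
      simp
    rw [d3, abs_neg, abs_mul, abs_mul, abs_mul, abs_mul, abs_of_pos e0, abs_of_pos (inv_pos.2 (p x)),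
      abs_two]
    have h1 := abs_real_inner_le_norm x v
    have h2 : ‖x‖ * ‖x‖ * (‖x‖ ^ 2 + η)⁻¹ ≤ 1 := by
      rw [mul_inv_le_iff₀ (p x)]; nlinarith
    calc _ ≤ ‖x‖ * (M * (e * ((‖x‖ ^ 2 + η)⁻¹ * (2 * (‖x‖ * ‖v‖))))) := by
          have := inv_pos.2 (p x)
          gcongr
          exact hM _
      _ = (‖x‖ * ‖x‖ * (‖x‖ ^ 2 + η)⁻¹) * (ε * ‖v‖) := by rw [he]; field_simp
      _ ≤ _ := mul_le_of_le_one_left (by positivity) h2

/-- **extension of a family of germs with positive derivative** -/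
theorem exists_ext {T : Type*} [NormedAddCommGroup T] [NormedSpace ℝ T] {g : T → E → E} {ρ δ : ℝ}
    (hρ : 0 < ρ) (hδ : 0 < δ)
    (hg : ContDiffOn ℝ ∞ (fun p : T × E => g p.1 p.2) (univ ×ˢ ball 0 ρ)) {S : Set T}
    (hS : IsCompact S) (h0 : ∀ t ∈ S, g t 0 = 0) (hp : ∀ t ∈ S, Ps (fderiv ℝ (g t) 0)) :
    ∃ F : T → E → E, ContDiff ℝ ∞ (fun p : T × E => F p.1 p.2) ∧
      (∀ t ∈ S, ∀ x, Ps (fderiv ℝ (F t) x)) ∧ (∀ t x, δ ≤ ‖x‖ → F t x = x) ∧
      (∀ᶠ x in 𝓝 0, ∀ t, F t x = g t x) ∧ ∀ t x, g t x = x → F t x = x := by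
  have oU : IsOpen ((univ : Set T) ×ˢ ball (0 : E) ρ) := isOpen_univ.prod isOpen_ball
  have ca : ∀ t, ∀ x ∈ ball (0 : E) ρ, ContDiffAt ℝ ∞ (fun p : T × E => g p.1 p.2) (t, x) :=
    fun t x hx => hg.contDiffAt (oU.mem_nhds ⟨mem_univ _, hx⟩)
  have ct : ∀ t, ∀ x ∈ ball (0 : E) ρ, ContDiffAt ℝ ∞ (g t) x := fun t x hx =>
    (ca t x hx).comp x (contDiffAt_const.prodMk contDiffAt_id)
  have cD : ∀ t, ContinuousAt (fun p : T × E => fderiv ℝ (g p.1) p.2) (t, 0) := fun t =>
    (ContDiffAt.fderiv (m := 0) (f := fun p : T × E => g p.1) (g := fun p => p.2)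
      ((ca t 0 (mem_ball_self hρ)).comp ((t, 0), 0) (contDiffAt_fst.fst.prodMk contDiffAt_snd))
      contDiffAt_snd (by simp)).continuousAt
  have cQ : ∀ y : T × E, ContinuousAt (fun z : E × T × E => ⟪fderiv ℝ (g z.2.1) z.1 z.2.2, z.2.2⟫_ℝ)
      (0, y) := fun y =>
    (((cD y.1).comp_of_eq (f := fun z : E × T × E => (z.2.1, z.1)) (by fun_prop) rfl).clm_apply
      (by fun_prop)).inner (by fun_prop)
  have hK := hS.prod (isCompact_sphere (0 : E) 1)
  obtain ⟨c, c0, hc⟩ := hK.exists_forall_le' (a := 0)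
    (f := fun y : T × E => ⟪fderiv ℝ (g y.1) 0 y.2, y.2⟫_ℝ)
    (fun y _ => ((cQ y).comp (f := fun y : T × E => ((0 : E), y)) (by fun_prop)).continuousWithinAt)
    fun y hy => hp _ hy.1 _ (ne_of_mem_sphere hy.2 one_ne_zero)
  obtain ⟨C, hC⟩ := hS.exists_bound_of_continuousOn (f := fun t => fderiv ℝ (g t) 0)
    fun t _ => ((cD t).comp (f := fun t : T => (t, (0 : E))) (by fun_prop)).continuousWithinAt
  have e1 : ∀ᶠ x in 𝓝 (0 : E), ∀ y ∈ S ×ˢ sphere (0 : E) 1,
      c / 2 < ⟪fderiv ℝ (g y.1) x y.2, y.2⟫_ℝ :=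
    hK.eventually_forall_of_forall_eventually fun y hy =>
      continuousAt_const.eventually_lt (cQ y) (by have := hc y hy; linarith)
  have e2 : ∀ᶠ x in 𝓝 (0 : E), ∀ t ∈ S, ‖fderiv ℝ (g t) x‖ < |C| + 1 :=
    hS.eventually_forall_of_forall_eventually fun t ht =>
      ((cD t).comp_of_eq (f := fun z : E × T => (z.2, z.1)) (by fun_prop) rfl).norm.eventually_lt
        continuousAt_const (by have := hC t ht; have := le_abs_self C; simp only [comp]; linarith)
  obtain ⟨r, r0, hr⟩ := Metric.eventually_nhds_iff_ball.1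
    ((e1.and e2).and (inter_mem (ball_mem_nhds (0 : E) hρ) (ball_mem_nhds 0 hδ)))
  have m0 : 0 < min 1 (c / 2) := by positivity
  obtain ⟨χ, x1, x2, x3, x4, x5⟩ := exists_slow (E := E)
    (ε := min 1 (c / 2) / (2 * (|C| + 2))) (by positivity) (half_pos r0)
  have off : ∀ x : E, x ∉ ball (0 : E) r → ∀ᶠ y in 𝓝 x, χ y = 0 := fun x hx => by
    rw [mem_ball_zero_iff, not_lt] at hx
    filter_upwards [continuousAt_const.eventually_lt continuous_norm.continuousAt
      ((half_lt_self r0).trans_le hx)] with y hy using x3 y hy.le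
  refine ⟨fun t x => x + χ x • (g t x - x), contDiff_iff_contDiffAt.2 fun ⟨t, x⟩ => ?_,
    fun t ht x v hv => ?_, fun t x hx => ?_, ?_, fun t x hx => by simp [hx]⟩
  · by_cases hx : x ∈ ball (0 : E) r
    · exact contDiffAt_snd.add ((x1.contDiffAt.comp _ contDiffAt_snd).smul
        ((ca t x (hr x hx).2.1).sub contDiffAt_snd))
    · refine contDiffAt_snd.congr_of_eventuallyEq ?_
      filter_upwards [(continuous_snd.tendsto (t, x)).eventually (off x hx)] with p hp
      simp [hp]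
  · have v0 : 0 < ‖v‖ := norm_pos_iff.2 hv
    by_cases hx : x ∈ ball (0 : E) r
    · have dg := ((ct t x (hr x hx).2.1).differentiableAt (by simp)).hasFDerivAt
      have d := (hasFDerivAt_id x).add (((x1.differentiable (by simp)) x).hasFDerivAt.smul
        (dg.sub (hasFDerivAt_id x)))
      rw [show fderiv ℝ (fun x => x + χ x • (g t x - x)) x = _ from d.fderiv]
      have a1 : c / 2 * ‖v‖ ^ 2 ≤ ⟪fderiv ℝ (g t) x v, v⟫_ℝ := by
        have := (hr x hx).1.1 (t, ‖v‖⁻¹ • v) ⟨ht, by simp [norm_smul, v0.ne']⟩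
        simp only [map_smul, inner_smul_left, inner_smul_right, conj_trivial] at this
        rw [← le_div_iff₀ (by positivity)]
        exact this.le.trans_eq (by field_simp)
      have a2 : ‖g t x - x‖ ≤ (|C| + 2) * ‖x‖ := by
        have := (convex_ball (0 : E) r).norm_image_sub_le_of_norm_fderiv_le (𝕜 := ℝ) (f := g t)
          (fun y hy => (ct t y (hr y hy).2.1).differentiableAt (by simp))
          (fun y hy => ((hr y hy).1.2 t ht).le) (mem_ball_self r0) hx
        rw [h0 t ht, sub_zero, sub_zero] at this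
        exact (norm_sub_le _ _).trans (by linarith)
      have a3 : |fderiv ℝ χ x v * ⟪g t x - x, v⟫_ℝ| ≤ min 1 (c / 2) / 2 * ‖v‖ ^ 2 := by
        rw [abs_mul]
        calc _ ≤ |fderiv ℝ χ x v| * ((|C| + 2) * ‖x‖ * ‖v‖) := by
              gcongr
              exact (abs_real_inner_le_norm _ _).trans (by gcongr)
          _ = (‖x‖ * |fderiv ℝ χ x v|) * ((|C| + 2) * ‖v‖) := by ring
          _ ≤ (min 1 (c / 2) / (2 * (|C| + 2)) * ‖v‖) * ((|C| + 2) * ‖v‖) :=
              mul_le_mul_of_nonneg_right (x5 x v) (by positivity)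
          _ = _ := by field_simp
      simp only [add_apply, smul_apply, sub_apply, ContinuousLinearMap.id_apply,
        ContinuousLinearMap.smulRight_apply, inner_add_left, real_inner_smul_left,
        inner_sub_left (fderiv ℝ (g t) x v), real_inner_self_eq_norm_sq, Pi.sub_apply, id]
      have b1 := mul_le_mul_of_nonneg_left a1 (x2 x).1
      have b2 := mul_nonneg (mul_nonneg (sub_nonneg.2 (x2 x).2)
        (sub_nonneg.2 (min_le_left 1 (c / 2)))) (sq_nonneg ‖v‖)
      have b3 := mul_nonneg (mul_nonneg (x2 x).1 (sub_nonneg.2 (min_le_right 1 (c / 2))))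
        (sq_nonneg ‖v‖)
      have b4 : 0 < min 1 (c / 2) * ‖v‖ ^ 2 := by positivity
      have b5 := (abs_le.1 a3).1
      nlinarith
    · have : (fun x => x + χ x • (g t x - x)) =ᶠ[𝓝 x] id := by
        filter_upwards [off x hx] with y hy
        simp [hy]
      rw [this.fderiv_eq, fderiv_id]
      exact ps_id v hv
  · have : x ∉ ball (0 : E) r := fun h => absurd (mem_ball_zero_iff.1 (hr x h).2.2) (not_lt.2 hx)
    simp [(off x this).self_of_nhds]
  · filter_upwards [x4] with x hx t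
    simp [hx]

end Crest.Agent.X212.Grm47
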