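import Crest.Agent.X212.Grm47.Core
import Crest.Agent.X212.Glb47.Push
import Crest.Agent.X212.Cyl58.OE

/-!
# X212 / Grm47 (helper47): straightening of germs, pushing diffeomorphisms, disc theorem in spheres
-/

set_option autoImplicit false

open Set Filter Topology Function Metric
open scoped ContDiff Manifold InnerProductSpace
open Crest.Agent.X212.Glue52 Crest.Agent.X212.Cyl58

noncomputable section

namespace Crest.Agent.X212.Grm47

/-- **EXT**: a compactly supported diffeomorphism is pushed along a smooth open embedding -/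
theorem exists_push {EA EB HA HB A B : Type*} [NormedAddCommGroup EA] [NormedSpace ℝ EA]
    [NormedAddCommGroup EB] [NormedSpace ℝ EB] [TopologicalSpace HA] [TopologicalSpace HB]
    {IA : ModelWithCorners ℝ EA HA} {IB : ModelWithCorners ℝ EB HB} [TopologicalSpace A]
    [ChartedSpace HA A] [TopologicalSpace B] [ChartedSpace HB B] [T2Space B] {s : A → B}
    (hs : IsOE IA IB s) (F : A ≃ₘ^∞⟮IA, IA⟯ A) {K : Set A} (hK : IsCompact K)
    (hF : ∀ x, x ∉ K → F x = x) :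
    ∃ Ψ : B ≃ₘ^∞⟮IB, IB⟯ B, (∀ x, Ψ (s x) = s (F x)) ∧ ∀ y, y ∉ s '' K → Ψ y = y := by
  obtain ⟨Ψ, h1, h2⟩ := Glb47.exists_pushH hs.isOpenEmbedding F.toHomeomorph hK hF
  have ld : IsLocalDiffeomorph IB IB ∞ Ψ := fun y => by
    by_cases h : y ∈ s '' K
    · obtain ⟨x, -, rfl⟩ := h
      refine Cyl58.ld_of_comp (hs.loc x) ?_
      rw [show Ψ ∘ s = s ∘ F from funext h1]
      exact Cyl58.ld_comp (hs.loc _) (F.isLocalDiffeomorph x)
    · refine Cyl58.ld_congr (Cyl58.ld_id y) ?_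
      filter_upwards [(hK.image hs.continuous).isClosed.isOpen_compl.mem_nhds h] with z hz
        using h2 z hz
  exact ⟨ld.diffeomorphOfBijective Ψ.bijective, h1, h2⟩

section cj

variable {E E' : Type*} [NormedAddCommGroup E] [NormedSpace ℝ E] [NormedAddCommGroup E']
  [NormedSpace ℝ E']

omit [NormedSpace ℝ E] in
/-- the identity near infinity -/
def Cs (F : E → E) : Prop := ∃ R, ∀ y, R ≤ ‖y‖ → F y = y

omit [NormedSpace ℝ E] in
theorem Cs.comp {F G : E → E} (h : Cs F) (h' : Cs G) : Cs fun x => F (G x) := by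
  obtain ⟨R, h⟩ := h
  obtain ⟨R', h'⟩ := h'
  exact ⟨max R R', fun y hy => (congrArg F (h' y (le_of_max_le_right hy))).trans
    (h y (le_of_max_le_left hy))⟩

/-- affine conjugation -/
def cj (L : E' ≃L[ℝ] E) (a : E') (G : E ≃ₘ^∞⟮𝓘(ℝ, E), 𝓘(ℝ, E)⟯ E) :
    E' ≃ₘ^∞⟮𝓘(ℝ, E'), 𝓘(ℝ, E')⟯ E' :=
  diffeoOf (fun x => a + L.symm (G (L (x - a)))) (fun x => a + L.symm (G.symm (L (x - a))))
    (contDiff_const.add (L.symm.contDiff.comp (G.contDiff.comp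
      (L.contDiff.comp (contDiff_id.sub contDiff_const))))).contMDiff
    (contDiff_const.add (L.symm.contDiff.comp (G.symm.contDiff.comp
      (L.contDiff.comp (contDiff_id.sub contDiff_const))))).contMDiff
    (fun x => by simp) fun x => by simp

theorem cj_apply (L : E' ≃L[ℝ] E) (a : E') (G : E ≃ₘ^∞⟮𝓘(ℝ, E), 𝓘(ℝ, E)⟯ E) (x : E') :
    cj L a G x = a + L.symm (G (L (x - a))) := rfl

theorem Cs.cj {G : E ≃ₘ^∞⟮𝓘(ℝ, E), 𝓘(ℝ, E)⟯ E} (h : Cs G) (L : E' ≃L[ℝ] E) (a : E') :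
    Cs (cj L a G) := by
  obtain ⟨R, h⟩ := h
  refine ⟨‖a‖ + ‖(L.symm : E →L[ℝ] E')‖ * |R| + 1, fun y hy => ?_⟩
  rw [cj_apply, h _ (not_lt.1 fun hl => ?_), L.symm_apply_apply, add_sub_cancel]
  have h1 := (L.symm : E →L[ℝ] E').le_opNorm (L (y - a))
  have h2 := mul_le_mul_of_nonneg_left (hl.le.trans (le_abs_self R))
    (norm_nonneg (L.symm : E →L[ℝ] E'))
  have h3 := norm_sub_norm_le y a
  simp only [ContinuousLinearEquiv.coe_coe, L.symm_apply_apply] at h1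
  linarith

/-- homothety -/
def hom (E : Type*) [NormedAddCommGroup E] [NormedSpace ℝ E] {c : ℝ} (hc : c ≠ 0) : E ≃L[ℝ] E :=
  ContinuousLinearEquiv.equivOfInverse (c⁻¹ • ContinuousLinearMap.id ℝ E)
    (c • ContinuousLinearMap.id ℝ E) (fun x => by simp [hc]) fun x => by simp [hc]

theorem cj_hom {c : ℝ} (hc : c ≠ 0) (a : E) (G : E ≃ₘ^∞⟮𝓘(ℝ, E), 𝓘(ℝ, E)⟯ E) (x : E) :
    cj (hom E hc) a G x = a + c • G (c⁻¹ • (x - a)) := rfl

end cj

variable {E : Type*} [NormedAddCommGroup E] [InnerProductSpace ℝ E] [FiniteDimensional ℝ E]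

/-- a germ with positive derivative extends with support in a small ball -/
theorem str0 {φ : E → E} {U : Set E} (hU : U ∈ 𝓝 (0 : E)) (hφ : ContDiffOn ℝ ∞ φ U) (h0 : φ 0 = 0)
    (hp : Ps (fderiv ℝ φ 0)) {δ : ℝ} (hδ : 0 < δ) : ∃ F : E ≃ₘ^∞⟮𝓘(ℝ, E), 𝓘(ℝ, E)⟯ E,
      F =ᶠ[𝓝 0] φ ∧ ∀ y, δ ≤ ‖y‖ → F y = y := by
  obtain ⟨ρ, hρ, hb⟩ := Metric.mem_nhds_iff.1 hU
  obtain ⟨F, f1, f2, f3, f4, -⟩ := exists_ext (T := ℝ) (g := fun _ => φ) hρ hδ
    (hφ.comp contDiffOn_snd fun p hp => hb hp.2) (isCompact_singleton (x := 0)) (fun _ _ => h0)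
    fun _ _ => hp
  exact ⟨monoD (f1.comp (contDiff_const.prodMk contDiff_id)) (f2 0 rfl) (f3 0),
    f4.mono fun x hx => hx 0, f3 0⟩

theorem exists_homothety {c : ℝ} (hc : 0 < c) (R : ℝ) : ∃ F : E ≃ₘ^∞⟮𝓘(ℝ, E), 𝓘(ℝ, E)⟯ E,
    Cs F ∧ ∀ x, ‖x‖ ≤ R → F x = c • x := by
  obtain ⟨G, g1, g2⟩ := str0 (φ := fun x : E => c • x) univ_mem
    (contDiff_const.smul contDiff_id).contDiffOn (smul_zero c) (fun v hv => by
      rw [show fderiv ℝ (fun x : E => c • x) 0 = _ from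
        ((hasFDerivAt_id (0 : E)).const_smul c).fderiv, smul_apply, real_inner_smul_left]
      exact mul_pos hc (real_inner_self_pos.2 hv)) one_pos
  obtain ⟨r, r0, hr⟩ := Metric.eventually_nhds_iff_ball.1 g1
  have l0 : 0 < (|R| + 1) / r := by positivity
  refine ⟨cj (hom E l0.ne') 0 G, Cs.cj ⟨1, g2⟩ _ _, fun x hx => ?_⟩
  rw [cj_hom, hr _ (mem_ball_zero_iff.2 ?_), sub_zero, zero_add, smul_comm, smul_inv_smul₀ l0.ne']
  rw [sub_zero, norm_smul, norm_inv, Real.norm_of_nonneg l0.le, inv_mul_lt_iff₀ l0,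
    div_mul_cancel₀ _ r0.ne']
  linarith [le_abs_self R]

theorem exists_transl (a w : E) : ∃ F : E ≃ₘ^∞⟮𝓘(ℝ, E), 𝓘(ℝ, E)⟯ E,
    Cs F ∧ ∀ᶠ x in 𝓝 a, F x = x + w := by
  obtain ⟨G, g1, g2⟩ := exists_homothety (E := E) two_pos (‖a‖ + 1)
  obtain ⟨G', g3, g4⟩ := exists_homothety (E := E) (c := 2⁻¹) (by norm_num)
    (2 * (‖a‖ + 1) + 2 * ‖w‖)
  refine ⟨G.trans (cj (.refl ℝ E) ((2 : ℝ) • w) G'), (g3.cj _ _).comp g1, ?_⟩
  filter_upwards [continuous_norm.continuousAt.eventually_lt continuousAt_const (lt_add_one ‖a‖)]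
    with x hx
  show (2 : ℝ) • w + G' (G x - (2 : ℝ) • w) = x + w
  rw [g2 x hx.le, g4 _ ((norm_sub_le _ _).trans (by simp only [norm_smul, Real.norm_ofNat]; linarith))]
  module

/-- **STR** -/
theorem str {E : Type*} [NormedAddCommGroup E] [NormedSpace ℝ E] [FiniteDimensional ℝ E]
    {φ : E → E} {U : Set E} {a : E} (hU : U ∈ 𝓝 a) (hφ : ContDiffOn ℝ ∞ φ U)
    (hd : HasFDerivAt φ (ContinuousLinearMap.id ℝ E) a) :
    ∃ F : E ≃ₘ^∞⟮𝓘(ℝ, E), 𝓘(ℝ, E)⟯ E, F =ᶠ[𝓝 a] φ ∧ ∃ R, ∀ y, R ≤ ‖y‖ → F y = y := by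
  let L := toEuclidean (E := E)
  have c1 : ContDiff ℝ ∞ fun y => a + L.symm y := contDiff_const.add L.symm.contDiff
  have t1 : Tendsto (fun x => L (x - a)) (𝓝 a) (𝓝 0) := by
    exact (L.continuous.comp (continuous_sub_right a)).tendsto' a 0 (by simp)
  obtain ⟨G, g1, g2⟩ := str0 (φ := fun y => L (φ (a + L.symm y) - φ a))
    (c1.continuous.continuousAt.preimage_mem_nhds (t := U) (by simpa using hU))
    (L.contDiff.comp_contDiffOn ((hφ.comp c1.contDiffOn fun _ h => h).sub contDiffOn_const))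
    (by simp) (fun v hv => by
      have d := L.hasFDerivAt.comp 0 ((HasFDerivAt.comp (f := fun y => a + L.symm y) 0
        (by simpa using hd) (L.symm.hasFDerivAt.const_add a)).sub_const (φ a))
      rw [show fderiv ℝ (fun y => L (φ (a + L.symm y) - φ a)) 0 = _ from d.fderiv]
      simpa using real_inner_self_pos.2 hv) one_pos
  obtain ⟨T, h1, h2⟩ := exists_transl 0 (L (φ a - a))
  refine ⟨cj L a (G.trans T), ?_, Cs.cj (G := G.trans T) (h1.comp (G := G) ⟨1, g2⟩) L a⟩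
  have G0 : Tendsto G (𝓝 0) (𝓝 0) := by
    simpa [g1.self_of_nhds] using G.continuous.tendsto 0
  filter_upwards [t1.eventually g1, (G0.comp t1).eventually h2] with x x1 x2
  show a + L.symm (T (G (L (x - a)))) = φ x
  rw [show T (G (L (x - a))) = _ from x2, comp_apply, x1]
  simp

/-! ### the disc theorem in spheres -/

section sphere

variable {V : Type*} [NormedAddCommGroup V] [InnerProductSpace ℝ V] {n : ℕ}
  [Fact (Module.finrank ℝ V = n + 1)]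

/-- the action of the linear group on the sphere -/
def nz (A : V ≃L[ℝ] V) (y : sphere (0 : V) 1) : sphere (0 : V) 1 :=
  ⟨‖A y‖⁻¹ • A y, by
    have : A y ≠ 0 := A.map_ne_zero_iff.2 (ne_zero_of_mem_unit_sphere y)
    simp [norm_smul, this]⟩

theorem contMDiff_nz (A : V ≃L[ℝ] V) : ContMDiff (𝓡 n) (𝓡 n) ∞ (nz A) := by
  have h : ContMDiff (𝓡 n) 𝓘(ℝ, V) ∞ fun y : sphere (0 : V) 1 => A y :=
    A.contDiff.comp_contMDiff contMDiff_coe_sphere
  refine ContMDiff.codRestrict_sphere (f := fun y : sphere (0 : V) 1 => ‖A y‖⁻¹ • A y)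
    (fun y => ?_) _
  have h0 : A y ≠ 0 := A.map_ne_zero_iff.2 (ne_zero_of_mem_unit_sphere y)
  exact (((contDiffAt_norm ℝ h0).inv (norm_ne_zero_iff.2 h0)).smul contDiffAt_id).comp_contMDiffAt
    (f := fun y : sphere (0 : V) 1 => A y) (x := y) (h y)

omit [Fact (Module.finrank ℝ V = n + 1)] in
theorem nz_nz (A : V ≃L[ℝ] V) (y : sphere (0 : V) 1) : nz A.symm (nz A y) = y := by
  have h0 : A y ≠ 0 := A.map_ne_zero_iff.2 (ne_zero_of_mem_unit_sphere y)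
  refine Subtype.ext ?_
  simp [nz, norm_smul, smul_smul, h0]

/-- the diffeomorphism of the sphere induced by a linear isomorphism -/
def act (A : V ≃L[ℝ] V) : sphere (0 : V) 1 ≃ₘ^∞⟮𝓡 n, 𝓡 n⟯ sphere (0 : V) 1 :=
  diffeoOf (nz A) (nz A.symm) (contMDiff_nz A) (contMDiff_nz A.symm) (nz_nz A) (nz_nz A.symm)

theorem exists_jet {e : EuclideanSpace ℝ (Fin n) → sphere (0 : V) 1}
    (he : IsOE 𝓘(ℝ, EuclideanSpace ℝ (Fin n)) (𝓡 n) e) :
    ContDiff ℝ ∞ (Subtype.val ∘ e) ∧ ∃ A : (EuclideanSpace ℝ (Fin n) × ℝ) ≃L[ℝ] V,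
      A (0, 1) = e 0 ∧ ∀ v, A (v, 0) = fderiv ℝ (Subtype.val ∘ e) 0 v := by
  have : FiniteDimensional ℝ V := .of_fact_finrank_eq_succ n
  have c : ContDiff ℝ ∞ (Subtype.val ∘ e) := (contMDiff_coe_sphere.comp he.contMDiff).contDiff
  have d := (c.differentiable (by simp) 0).hasFDerivAt
  set D := fderiv ℝ (Subtype.val ∘ e) 0 with hD
  have inj : Injective D := by
    rw [hD, ← mfderiv_eq_fderiv, mfderiv_comp 0
      ((contMDiff_coe_sphere (m := 1) _).mdifferentiableAt one_ne_zero)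
      ((he.contMDiff 0).mdifferentiableAt (by simp))]
    exact (injective_mvfderiv_subtypeVal_sphere _).comp
      ((he.loc 0).mfderivToContinuousLinearEquiv (by simp)).injective
  have orth : ∀ v, ⟪(e 0 : V), D v⟫_ℝ = 0 := fun v => by
    have h1 := d.norm_sq
    rw [show (fun x => ‖(Subtype.val ∘ e) x‖ ^ 2) = fun _ => (1 : ℝ) from funext fun x => by simp]
      at h1
    simpa using congrArg (fun L => L v) (h1.unique (hasFDerivAt_const _ _))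
  let B : (EuclideanSpace ℝ (Fin n) × ℝ) →L[ℝ] V :=
    D.coprod (ContinuousLinearMap.toSpanSingleton ℝ (e 0 : V))
  have hB : Injective B := (injective_iff_map_eq_zero _).2 fun ⟨v, t⟩ h => by
    have h1 : D v + t • (e 0 : V) = 0 := h
    have h2 := congrArg (fun w => ⟪(e 0 : V), w⟫_ℝ) h1
    have h3 : t = 0 := by simpa [inner_add_right, orth, inner_smul_right] using h2
    rw [h3, zero_smul, add_zero] at h1
    rw [h3, (injective_iff_map_eq_zero _).1 inj v h1]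
    rfl
  refine ⟨c, (LinearMap.linearEquivOfInjective B.toLinearMap hB (by
    simp [(Fact.out : Module.finrank ℝ V = n + 1)])).toContinuousLinearEquiv, ?_, fun v => ?_⟩
  · show D 0 + (1 : ℝ) • (e 0 : V) = _
    simp
  · show D v + (0 : ℝ) • (e 0 : V) = _
    simp

theorem disc0 {e₁ e₂ : EuclideanSpace ℝ (Fin n) → sphere (0 : V) 1}
    (h₁ : IsOE 𝓘(ℝ, EuclideanSpace ℝ (Fin n)) (𝓡 n) e₁)
    (h₂ : IsOE 𝓘(ℝ, EuclideanSpace ℝ (Fin n)) (𝓡 n) e₂) :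
    ∃ ψ : sphere (0 : V) 1 ≃ₘ^∞⟮𝓡 n, 𝓡 n⟯ sphere (0 : V) 1, ∀ᶠ x in 𝓝 0, ψ (e₁ x) = e₂ x := by
  obtain ⟨c1, A1, a1, b1⟩ := exists_jet h₁
  obtain ⟨c2, A2, a2, b2⟩ := exists_jet h₂
  let A := A1.symm.trans A2
  have A0 : A (e₁ 0) = e₂ 0 := by
    rw [← a1, ← a2]; exact congrArg A2 (A1.symm_apply_apply _)
  have n0 : nz A (e₁ 0) = e₂ 0 := Subtype.ext (by simp [nz, A0])
  have cm : ContMDiff 𝓘(ℝ, EuclideanSpace ℝ (Fin n)) (𝓡 n) ∞ (nz A ∘ e₁) :=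
    (contMDiff_nz A).comp h₁.contMDiff
  have hU : (nz A ∘ e₁) ⁻¹' range e₂ ∈ 𝓝 0 :=
    (h₂.isOpen_range.preimage cm.continuous).mem_nhds ⟨0, n0.symm⟩
  let φ := h₂.pd.symm ∘ nz A ∘ e₁
  have cφ : ContDiffOn ℝ ∞ φ ((nz A ∘ e₁) ⁻¹' range e₂) :=
    (h₂.pd.contMDiffOn_invFun.comp cm.contMDiffOn fun _ h => h).contDiffOn
  have eφ : ∀ᶠ x in 𝓝 0, e₂ (φ x) = nz A (e₁ x) := by
    filter_upwards [hU] with x hx using h₂.pd.right_inv hx
  have φ0 : φ 0 = 0 := h₂.inj (eφ.self_of_nhds.trans n0)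
  have dφ := ((cφ.contDiffAt hU).differentiableAt (by simp)).hasFDerivAt
  have d1 := (c1.differentiable (by simp) 0).hasFDerivAt
  have d2 := (c2.differentiable (by simp) 0).hasFDerivAt
  have p0 : (e₂ 0 : V) ≠ 0 := ne_zero_of_mem_unit_sphere _
  have dN : HasFDerivAt (fun y : V => ‖y‖⁻¹ • y) (fderiv ℝ (fun y : V => ‖y‖⁻¹ • y) (e₂ 0)) (e₂ 0) :=
    ((((contDiffAt_norm ℝ p0).inv (norm_ne_zero_iff.2 p0)).smul contDiffAt_id
      (n := 1)).differentiableAt one_ne_zero).hasFDerivAt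
  generalize fderiv ℝ (fun y : V => ‖y‖⁻¹ • y) (e₂ 0) = N at dN
  have d3 : HasFDerivAt (Subtype.val ∘ e₂) (fderiv ℝ (Subtype.val ∘ e₂) 0) (φ 0) := by rwa [φ0]
  have d4 : HasFDerivAt (fun y : V => ‖y‖⁻¹ • y) N ((A ∘ Subtype.val ∘ e₁) 0) := by
    rwa [show (A ∘ Subtype.val ∘ e₁) 0 = e₂ 0 from A0]
  have k1 := (d3.comp 0 dφ).unique ((d4.comp 0 (A.hasFDerivAt.comp 0 d1)).congr_of_eventuallyEq
    (eφ.mono fun x hx => congrArg Subtype.val hx))
  have k2 := (HasFDerivAt.comp (f := Subtype.val ∘ e₂) 0 dN d2).unique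
    (d2.congr_of_eventuallyEq (Eventually.of_forall fun x => by simp))
  obtain ⟨F, f1, f2⟩ := str0 hU cφ φ0 (fun v hv => by
    have : fderiv ℝ φ 0 v = v := by
      have j1 := congrArg (fun L => L v) k1
      have j2 := congrArg (fun L => L v) k2
      simp only [ContinuousLinearMap.comp_apply, ← b1, ← b2, ContinuousLinearEquiv.coe_coe, A,
        ContinuousLinearEquiv.trans_apply, A1.symm_apply_apply] at j1 j2
      exact congrArg Prod.fst (A2.injective (j1.trans j2))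
    rw [this]
    exact real_inner_self_pos.2 hv) one_pos
  obtain ⟨Ψ, p1, -⟩ := exists_push h₂ F (isCompact_closedBall 0 1) fun x hx =>
    f2 x (by simpa using (not_le.1 (mt mem_closedBall_zero_iff.2 hx)).le)
  refine ⟨(act A).trans Ψ.symm, ?_⟩
  filter_upwards [f1, eφ] with x x1 x2
  show Ψ.symm (nz A (e₁ x)) = e₂ x
  rw [← x2, ← x1, ← p1, Ψ.symm_apply_apply]

/-- **DISC** -/
theorem disc {e₁ e₂ : EuclideanSpace ℝ (Fin n) → sphere (0 : V) 1}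
    (h₁ : IsOE 𝓘(ℝ, EuclideanSpace ℝ (Fin n)) (𝓡 n) e₁)
    (h₂ : IsOE 𝓘(ℝ, EuclideanSpace ℝ (Fin n)) (𝓡 n) e₂) (R : ℝ) :
    ∃ ψ : sphere (0 : V) 1 ≃ₘ^∞⟮𝓡 n, 𝓡 n⟯ sphere (0 : V) 1,
      ∀ x, ‖x‖ ≤ R → ψ (e₁ x) = e₂ x := by
  obtain ⟨ψ, hψ⟩ := disc0 h₁ h₂
  obtain ⟨r, r0, hr⟩ := Metric.eventually_nhds_iff_ball.1 hψ
  have c0 : 0 < r / (|R| + 1) := by positivity
  obtain ⟨F, ⟨ρ, f1⟩, f2⟩ := exists_homothety (E := EuclideanSpace ℝ (Fin n)) c0 R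
  have f3 : ∀ x, x ∉ closedBall (0 : EuclideanSpace ℝ (Fin n)) ρ → F x = x := fun x hx =>
    f1 x (not_le.1 (mt mem_closedBall_zero_iff.2 hx)).le
  obtain ⟨κ₁, p1, -⟩ := exists_push h₁ F (isCompact_closedBall 0 ρ) f3
  obtain ⟨κ₂, p2, -⟩ := exists_push h₂ F (isCompact_closedBall 0 ρ) f3
  refine ⟨(κ₁.trans ψ).trans κ₂.symm, fun x hx => ?_⟩
  show κ₂.symm (ψ (κ₁ (e₁ x))) = e₂ x
  rw [p1, hr _ (mem_ball_zero_iff.2 ?_), ← p2, κ₂.symm_apply_apply]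
  rw [f2 x hx, norm_smul, Real.norm_of_nonneg c0.le, div_mul_eq_mul_div, div_lt_iff₀ (by positivity)]
  exact mul_lt_mul_of_pos_left (by linarith [le_abs_self R]) r0

end sphere

end Crest.Agent.X212.Grm47
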