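import Crest.Agent.X212.Grm47.Core
import Crest.Agent.X212.Prf6.Tr

/-!
# X212 / Grm47 (helper47): `Prf6.Germ1`, `Prf6.Germ2`
-/

set_option autoImplicit false

open Set Filter Topology Function Metric Complex
open scoped ContDiff Manifold InnerProductSpace ComplexConjugate
open Crest.Agent.X212.Prf6

noncomputable section

namespace Crest.Agent.X212.Grm47

/-- a bounded smooth embedding of the line which is the identity on `[-1, 1]` -/
theorem exists_rho : ∃ ρ : ℝ → ℝ, ContDiff ℝ ∞ ρ ∧ (∀ t, 0 < deriv ρ t) ∧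
    (∀ t, |t| ≤ 1 → ρ t = t) ∧ ∀ t, |ρ t| ≤ 6 := by
  let g : ℝ → ℝ := fun s => (1 + s ^ 2 * Real.smoothTransition (s ^ 2 - 1))⁻¹
  have p : ∀ s : ℝ, 1 ≤ 1 + s ^ 2 * Real.smoothTransition (s ^ 2 - 1) := fun s =>
    le_add_of_nonneg_right (mul_nonneg (sq_nonneg s) (Real.smoothTransition.nonneg _))
  have cg : ContDiff ℝ ∞ g := (contDiff_const.add ((contDiff_id.pow 2).mul
    (Real.smoothTransition.contDiff.comp ((contDiff_id.pow 2).sub contDiff_const)))).inv
      fun s => (one_pos.trans_le (p s)).ne'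
  have g0 : ∀ s, 0 < g s := fun s => inv_pos.2 (one_pos.trans_le (p s))
  have g1 : ∀ s, g s ≤ 3 * (1 / (1 + s ^ 2)) := fun s => by
    have q : 0 < 1 + s ^ 2 := by positivity
    rw [mul_one_div, le_div_iff₀ q]
    rcases le_total (s ^ 2) 2 with h | h
    · have : g s ≤ 1 := inv_le_one_of_one_le₀ (p s)
      nlinarith [g0 s]
    · simp only [g, Real.smoothTransition.one_of_one_le (show 1 ≤ s ^ 2 - 1 by linarith), mul_one]
      rw [inv_mul_cancel₀ q.ne']
      norm_num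
  have d : ∀ t, HasDerivAt (fun u => ∫ s in (0 : ℝ)..u, g s) (g t) t := fun t =>
    (cg.continuous.integral_hasStrictDerivAt 0 t).hasDerivAt
  have e : deriv (fun u => ∫ s in (0 : ℝ)..u, g s) = g := funext fun t => (d t).deriv
  refine ⟨fun u => ∫ s in (0 : ℝ)..u, g s,
    contDiff_infty_iff_deriv.2 ⟨fun t => (d t).differentiableAt, e.symm ▸ cg⟩,
    fun t => e.symm ▸ g0 t, fun t ht => ?_, fun t => ?_⟩
  · show ∫ s in (0 : ℝ)..t, g s = t
    rw [intervalIntegral.integral_congr (g := fun _ => (1 : ℝ)) fun s hs => ?_]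
    · simp
    · have h1 : |s| ≤ 1 := by simpa using (abs_sub_left_of_mem_uIcc hs).trans (by simpa using ht)
      have h2 : s ^ 2 - 1 ≤ 0 := by have := (sq_le_one_iff_abs_le_one s).2 h1; linarith
      simp [g, Real.smoothTransition.zero_of_nonpos h2]
  · have m1 : Monotone fun u => ∫ s in (0 : ℝ)..u, g s :=
      monotone_of_hasDerivAt_nonneg d fun s => (g0 s).le
    have m2 : Monotone fun u => 3 * Real.arctan u - ∫ s in (0 : ℝ)..u, g s :=
      monotone_of_hasDerivAt_nonneg (fun t => ((Real.hasDerivAt_arctan t).const_mul 3).sub (d t))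
        fun s => sub_nonneg.2 (g1 s)
    have a1 := Real.neg_pi_div_two_lt_arctan t
    have a2 := Real.arctan_lt_pi_div_two t
    have a3 := Real.pi_le_four
    rw [abs_le]
    rcases le_total 0 t with h | h <;> have b1 := m1 h <;> have b2 := m2 h <;>
      simp only [intervalIntegral.integral_same, Real.arctan_zero] at b1 b2 <;>
      constructor <;> linarith

/-- the complex linear part -/
def pa (A : ℂ →L[ℝ] ℂ) : ℂ := (A 1 - I * A I) / 2
/-- the antilinear part -/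
def pb (A : ℂ →L[ℝ] ℂ) : ℂ := (A 1 + I * A I) / 2

theorem pa_pb (A : ℂ →L[ℝ] ℂ) (v : ℂ) : A v = pa A * v + pb A * conj v := by
  have h : A v = v.re * A 1 + v.im * A I := by
    conv_lhs => rw [show v = v.re • (1 : ℂ) + v.im • I by simp, map_add, map_smul, map_smul]
    simp
  have h1 : conj v = v.re - v.im * I := by apply Complex.ext <;> simp
  have h2 := (re_add_im v).symm
  rw [h, h1, pa, pb]
  generalize (v.re : ℂ) = x at *
  generalize (v.im : ℂ) = y at *
  rw [h2]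
  linear_combination (y * A I) * I_mul_I

theorem pb_lt {A : ℂ →L[ℝ] ℂ} (hA : 0 < A.det) : ‖pb A‖ < ‖pa A‖ := by
  rw [det_C] at hA
  refine lt_of_pow_lt_pow_left₀ 2 (norm_nonneg _) ?_
  rw [Complex.sq_norm, Complex.sq_norm, normSq_apply, normSq_apply]
  simp [pa, pb]
  nlinarith

theorem pa_ne {A : ℂ →L[ℝ] ℂ} (hA : 0 < A.det) : pa A ≠ 0 :=
  norm_pos_iff.1 ((norm_nonneg _).trans_lt (pb_lt hA))

theorem ps_of {A : ℂ →L[ℝ] ℂ} (hA : 0 < A.det) {u : ℂ} (hu : ‖u‖ = 1) (hua : pa A * u = ‖pa A‖)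
    {v : ℂ} (hv : v ≠ 0) : 0 < ⟪A v * u, v⟫_ℝ := by
  have e : A v * u = ‖pa A‖ • v + pb A * conj v * u := by
    rw [pa_pb A v, real_smul, ← hua]; ring
  have h1 := (abs_le.1 (abs_real_inner_le_norm (pb A * conj v * u) v)).1
  rw [norm_mul, norm_mul, hu, norm_conj] at h1
  rw [e, inner_add_left, real_inner_smul_left, real_inner_self_eq_norm_sq]
  have h2 := mul_pos (sub_pos.2 (pb_lt hA)) (pow_pos (norm_pos_iff.2 hv) 2)
  nlinarith

/-- smooth logarithm along a path -/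
theorem exists_log {a : ℝ → ℂ} (ha : ContDiff ℝ ∞ a) (h0 : ∀ t, a t ≠ 0) (h1 : a 0 = 1) :
    ∃ α : ℝ → ℂ, ContDiff ℝ ∞ α ∧ α 0 = 0 ∧ ∀ t, exp (α t) = a t := by
  obtain ⟨da, ca⟩ := contDiff_infty_iff_deriv.1 ha
  have cg : ContDiff ℝ ∞ fun t => deriv a t / a t := ca.mul (ha.inv h0)
  have d : ∀ t, HasDerivAt (fun u => ∫ s in (0 : ℝ)..u, deriv a s / a s) (deriv a t / a t) t :=
    fun t => (cg.continuous.integral_hasStrictDerivAt 0 t).hasDerivAt
  refine ⟨fun u => ∫ s in (0 : ℝ)..u, deriv a s / a s,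
    contDiff_infty_iff_deriv.2 ⟨fun t => (d t).differentiableAt, ?_⟩, by simp, fun t => ?_⟩
  · rwa [show deriv (fun u => ∫ s in (0 : ℝ)..u, deriv a s / a s) = _ from
      funext fun t => (d t).deriv]
  · have k : ∀ t, HasDerivAt (fun u => a u * exp (-∫ s in (0 : ℝ)..u, deriv a s / a s)) 0 t :=
      fun t => by
        refine ((da t).hasDerivAt.mul (d t).neg.cexp).congr_deriv ?_
        rw [mul_left_comm, mul_neg, mul_div_cancel₀ _ (h0 t)]
        ring
    have := is_const_of_deriv_eq_zero (fun t => (k t).differentiableAt) (fun t => (k t).deriv) t 0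
    simp only [intervalIntegral.integral_same, neg_zero, exp_zero, h1, mul_one, exp_neg] at this
    exact ((mul_inv_eq_one₀ (exp_ne_zero _)).1 this).symm

theorem cover {g : ℝ → ℂ → ℂ} {ρ δ : ℝ} (hρ : 0 < ρ) (hδ : 0 < δ)
    (hg : ContDiffOn ℝ ∞ (fun p : ℝ × ℂ => g p.1 p.2) (univ ×ˢ ball 0 ρ)) {S : Set ℝ}
    (hS : IsCompact S) (h0 : ∀ t ∈ S, g t 0 = 0) (hp : ∀ t ∈ S, Ps (fderiv ℝ (g t) 0))
    {τ θ : ℝ → ℝ} (hτ : ContDiff ℝ ∞ τ) (hθ : ContDiff ℝ ∞ θ) (τS : ∀ t, τ t ∈ S) (θ0 : θ 0 = 0)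
    (g0 : ∀ z, ‖z‖ < δ → g (τ 0) z = z) :
    ∃ κ, Iso oC κ ∧ (∀ t z, δ ≤ ‖z‖ → κ t z = z) ∧
      (∀ᶠ z in 𝓝 0, ∀ t, κ t z = g (τ t) z * exp (2 * Real.pi * I * θ t)) ∧
      ∀ t, (∀ z, ‖z‖ < δ → g (τ t) z = z) → κ t = rot δ (θ t) := by
  obtain ⟨F, f1, f2, f3, f4, f5⟩ := exists_ext hρ hδ hg hS h0 hp
  have ct : ∀ t, ContDiff ℝ ∞ (F t) := fun t => f1.comp (contDiff_const.prodMk contDiff_id)
  let P : ℝ → Equiv.Perm ℂ := fun t =>
    Equiv.ofBijective (F (τ t)) (mono_bij (ct _) (f2 _ (τS t)) (f3 _))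
  have P1 : ∀ t, (∀ z, ‖z‖ < δ → g (τ t) z = z) → P t = 1 := fun t h => Equiv.ext fun z =>
    (lt_or_ge ‖z‖ δ).elim (fun hz => f5 _ _ (h z hz)) (f3 _ z)
  have iP : Iso oC P := iso_of_ld (cm_of_cd (f1.comp (f := fun p : ℝ × ℂ => (τ p.1, p.2))
    ((hτ.comp contDiff_fst).prodMk contDiff_snd))) (fun t => mono_ld (ct _) (f2 _ (τS t))) (P1 0 g0)
  refine ⟨fun t => rot δ (θ t) * P t, ((rot_iso hδ).reparam hθ θ0).mul iP, fun t z hz => ?_, ?_,
    fun t h => by simp only [P1 t h, mul_one]⟩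
  · show rot δ (θ t) (F (τ t) z) = z
    rw [f3 _ z hz, rot_out hδ _ hz]
  · have : ∀ᶠ z in 𝓝 (0 : ℂ), ∀ t ∈ S, ‖F t z‖ < δ / 2 :=
      hS.eventually_forall_of_forall_eventually fun t ht =>
        (f1.continuous.comp continuous_swap).norm.continuousAt.eventually_lt continuousAt_const
          (by simpa [f5 t 0 (h0 t ht)] using hδ)
    filter_upwards [this, f4] with z h1 h2 t
    show rot δ (θ t) (F (τ t) z) = _
    rw [rot_in hδ _ (h1 _ (τS t)).le, h2]

theorem germ1 : Germ1 := by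
  intro f δ hf f0 hδ
  obtain ⟨ρ, hρ, hb⟩ := Metric.eventually_nhds_iff_ball.1 hf.eventually
  have cf : ContDiffOn ℝ ∞ f (ball 0 ρ) := fun z hz => (hb z hz).contDiffAt.contDiffWithinAt
  set A := fderiv ℝ f 0 with hA
  set θ : ℝ := arg (pa A) / (2 * Real.pi) with hθ
  have eθ : 2 * Real.pi * I * θ = arg (pa A) * I := by
    rw [hθ]; push_cast; field_simp [Real.pi_ne_zero]
  set u : ℂ := exp (-(2 * Real.pi * I * θ)) with hu
  have u1 : ‖u‖ = 1 := by rw [hu, exp_neg, norm_inv, norm_exp_2pi, inv_one]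
  have ua : pa A * u = ‖pa A‖ := by
    rw [hu, eθ, exp_neg, mul_inv_eq_iff_eq_mul₀ (exp_ne_zero _), norm_mul_exp_arg_mul_I]
  obtain ⟨κ, k1, k2, k3, -⟩ := cover (g := fun t z => (1 - t) • z + t • (f z * u)) hρ hδ
    ((((contDiff_const.sub contDiff_fst).smul contDiff_snd).contDiffOn).add (contDiffOn_fst.smul
      ((cf.comp contDiffOn_snd fun p hp => hp.2).mul contDiffOn_const))) (isCompact_Icc (a := 0) (b := 1))
    (fun t _ => by simp [f0]) (fun t ht v hv => by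
      have d := ((hasFDerivAt_id (0 : ℂ)).const_smul (1 - t)).add
        (((hf.contDiffAt.differentiableAt (by simp)).hasFDerivAt.mul_const u).const_smul t)
      rw [show fderiv ℝ (fun z => (1 - t) • z + t • (f z * u)) 0 = _ from d.fderiv]
      have h1 := ps_of hf.det_pos u1 ua hv
      have h2 := real_inner_self_pos.2 hv
      simp only [add_apply, smul_apply, ContinuousLinearMap.id_apply, inner_add_left,
        real_inner_smul_left, smul_eq_mul, mul_comm u]
      rcases ht.1.eq_or_lt with h | h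
      · simpa [← h] using h2
      · exact add_pos_of_nonneg_of_pos (mul_nonneg (sub_nonneg.2 ht.2) h2.le) (mul_pos h h1))
    Real.smoothTransition.contDiff (θ := fun t => t * θ) (contDiff_id.mul contDiff_const)
    (fun t => ⟨Real.smoothTransition.nonneg t, Real.smoothTransition.le_one t⟩) (zero_mul _)
    fun z _ => by simp
  refine ⟨κ, k1, fun t => by simpa [f0] using k3.self_of_nhds t, k2, k3.mono fun z hz => ?_⟩
  rw [hz 1, Real.smoothTransition.one, one_mul, sub_self, zero_smul, one_smul, zero_add, mul_assoc,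
    hu, ← exp_add, neg_add_cancel, exp_zero, mul_one]

theorem germ2 : Germ2 := by
  intro f ρ δ hρ hδ hf f0 hd e0 e1
  have ca : ∀ t, ContDiffAt ℝ ∞ (fun p : ℝ × ℂ => f p.1 p.2) (t, 0) := fun t =>
    hf.contDiffAt ((isOpen_univ.prod isOpen_ball).mem_nhds ⟨mem_univ _, mem_ball_self hρ⟩)
  have cD : ContDiff ℝ ∞ fun t => fderiv ℝ (f t) 0 := contDiff_iff_contDiffAt.2 fun t =>
    ContDiffAt.fderiv (f := f) (g := fun _ => 0) (ca t) contDiffAt_const (by simp)
  have hd' : ∀ t, 0 < (fderiv ℝ (f t) 0).det := fun t => dt_eq (f t) 0 ▸ hd t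
  have p1 : ∀ t, (∀ᶠ z in 𝓝 0, f t z = z) → pa (fderiv ℝ (f t) 0) = 1 := fun t h => by
    rw [show fderiv ℝ (f t) 0 = fderiv ℝ id 0 from EventuallyEq.fderiv_eq h, fderiv_id]
    simp [pa]
  obtain ⟨α, a1, a2, a3⟩ := exists_log (a := fun t => pa (fderiv ℝ (f t) 0))
    (((cD.clm_apply contDiff_const).sub (contDiff_const.mul (cD.clm_apply contDiff_const))).div_const 2)
    (fun t => pa_ne (hd' t)) (p1 0 e0)
  let θ : ℝ → ℝ := fun t => (α t).im / (2 * Real.pi)
  have cθ : ContDiff ℝ ∞ θ := (imCLM.contDiff.comp a1).div_const _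
  have eθ : ∀ t, 2 * Real.pi * I * θ t = (α t).im * I := fun t => by
    simp only [θ]; push_cast; field_simp [Real.pi_ne_zero]
  obtain ⟨m, hm⟩ := exp_eq_one_iff.1 ((a3 1).trans (p1 1 e1))
  have θ0 : θ 0 = 0 := by simp [θ, a2]
  have θ1 : θ 1 = m := by simp [θ, hm]
  obtain ⟨τ, t1, -, t3, t4⟩ := exists_rho
  obtain ⟨r, r0, hr⟩ := Metric.eventually_nhds_iff_ball.1 (e0.and e1)
  have he : ContDiff ℝ ∞ (exp : ℂ → ℂ) := Complex.contDiff_exp
  obtain ⟨κ, k1, k2, k3, k4⟩ := cover (g := fun t z => f t z * exp (-(2 * Real.pi * I * θ t))) hρ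
    (lt_min hδ r0) (hf.mul (he.comp (contDiff_const.mul
      (ofRealCLM.contDiff.comp (cθ.comp contDiff_fst))).neg).contDiffOn)
    (isCompact_Icc (a := -6) (b := 6)) (fun t _ => by simp [f0]) (fun t _ v hv => by
      have d := (((ca t).comp 0 (contDiffAt_const.prodMk contDiffAt_id)).differentiableAt
        (by simp)).hasFDerivAt.mul_const (exp (-(2 * Real.pi * I * θ t)))
      rw [show fderiv ℝ (fun z => f t z * exp (-(2 * Real.pi * I * θ t))) 0 = _ from d.fderiv,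
        smul_apply, smul_eq_mul, mul_comm]
      refine ps_of (hd' t) (by rw [exp_neg, norm_inv, norm_exp_2pi, inv_one]) ?_ hv
      rw [← a3, eθ, norm_exp, ← exp_add, ofReal_exp]
      congr 1
      linear_combination -re_add_im (α t))
    t1 (cθ.comp t1) (fun t => abs_le.1 (t4 t)) (by simp [t3 0, θ0]) fun z hz => by
      simp [t3 0, θ0, (hr z (mem_ball_zero_iff.2 (hz.trans_le (min_le_right _ _)))).1]
  refine ⟨κ, m, min δ r, lt_min hδ r0, min_le_left _ _, k1,
    fun t z hz => k2 t z ((min_le_left _ _).trans hz), k3.mono fun z hz t ht => ?_, ?_⟩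
  · rw [hz t, comp_apply, t3 t (abs_le.2 ⟨by linarith [ht.1], ht.2⟩), mul_assoc, ← exp_add,
      neg_add_cancel, exp_zero, mul_one]
  · rw [k4 1 fun z hz => ?_, comp_apply, t3 1 (by simp), θ1]
    rw [t3 1 (by simp), θ1, (hr z (mem_ball_zero_iff.2 (hz.trans_le (min_le_right _ _)))).2,
      exp_neg, ofReal_intCast, mul_comm _ (m : ℂ), exp_int_mul_two_pi_mul_I, inv_one, mul_one]

end Crest.Agent.X212.Grm47
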